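import Mathlib

namespace Vale.Agent.Results.P015.LogStrip

open GaussianInt

theorem norm_sq_eq (w : GaussianInt) : ‖(w : ℂ)‖ ^ 2 = (w.norm : ℝ) := by
  rw [GaussianInt.intCast_real_norm, Complex.normSq_eq_norm_sq]

/-- Only finitely many Gaussian integers lie in a disk. -/
theorem finite_disk (R : ℝ) : {w : GaussianInt | ‖(w : ℂ)‖ ≤ R}.Finite := by
  obtain ⟨N, hN⟩ := exists_nat_ge R
  have hsub : {w : GaussianInt | ‖(w : ℂ)‖ ≤ R} ⊆
      (fun q : ℤ × ℤ => (⟨q.1, q.2⟩ : GaussianInt)) ''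
        (Set.Icc (-(N : ℤ)) N ×ˢ Set.Icc (-(N : ℤ)) N) := by
    intro w hw
    have hw' : ‖(w : ℂ)‖ ≤ N := le_trans hw hN
    have h1 : |(w : ℂ).re| ≤ N := le_trans (Complex.abs_re_le_norm _) hw'
    have h2 : |(w : ℂ).im| ≤ N := le_trans (Complex.abs_im_le_norm _) hw'
    rw [← GaussianInt.intCast_re] at h1
    rw [← GaussianInt.intCast_im] at h2
    have h1' : |w.re| ≤ (N : ℤ) := by exact_mod_cast h1
    have h2' : |w.im| ≤ (N : ℤ) := by exact_mod_cast h2
    refine ⟨(w.re, w.im), ⟨⟨?_, ?_⟩, ⟨?_, ?_⟩⟩, rfl⟩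
    · exact (abs_le.mp h1').1
    · exact (abs_le.mp h1').2
    · exact (abs_le.mp h2').1
    · exact (abs_le.mp h2').2
  exact ((Set.finite_Icc _ _).prod (Set.finite_Icc _ _)).image _ |>.subset hsub

/-- A nonzero Gaussian integer has modulus at least one. -/
theorem one_le_norm_of_ne_zero (w : GaussianInt) (hw : w ≠ 0) : 1 ≤ ‖(w : ℂ)‖ := by
  have h1 : 0 < w.norm := GaussianInt.norm_pos.mpr hw
  have h2 : (1 : ℝ) ≤ (w.norm : ℝ) := by exact_mod_cast h1
  rw [← norm_sq_eq] at h2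
  nlinarith [_root_.norm_nonneg (w : ℂ)]

/-- The factorial moat: around every nonzero multiple of `K!` all Gaussian integers at distance
in `(1, sqrt K]` are non-prime. -/
theorem barrier (K : ℕ) (w z : GaussianInt) (hw : w ≠ 0) (hz : Prime z)
    (h1 : 1 < ‖(z : ℂ) - ((K.factorial : GaussianInt) * w : GaussianInt)‖)
    (h2 : ‖(z : ℂ) - ((K.factorial : GaussianInt) * w : GaussianInt)‖ ^ 2 ≤ K)
    (h3 : 2 * ‖(z : ℂ) - ((K.factorial : GaussianInt) * w : GaussianInt)‖ < K.factorial) :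
    False := by
  set c : GaussianInt := (K.factorial : GaussianInt) * w with hc
  set v : GaussianInt := z - c with hv
  have hvc : ((v : GaussianInt) : ℂ) = (z : ℂ) - (c : ℂ) := by
    rw [hv]; exact GaussianInt.toComplex_sub z c
  rw [← hvc] at h1 h2 h3
  have hN1 : (1 : ℝ) < (v.norm : ℝ) := by
    rw [← norm_sq_eq]; nlinarith
  have hN2 : (v.norm : ℝ) ≤ K := by rw [← norm_sq_eq]; exact h2
  have hN1' : 1 < v.norm := by exact_mod_cast hN1
  have hN2' : v.norm ≤ K := by exact_mod_cast hN2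
  have hd1 : v.norm.natAbs ∣ K.factorial := by
    apply Nat.dvd_factorial
    · omega
    · omega
  have hd2 : v ∣ (K.factorial : GaussianInt) := by
    have ha : v ∣ ((v.norm : ℤ) : GaussianInt) := by
      rw [Zsqrtd.norm_eq_mul_conj]; exact Dvd.intro _ rfl
    have hb : ((v.norm : ℤ) : GaussianInt) ∣ (K.factorial : GaussianInt) := by
      have h5 : ((v.norm.natAbs : ℕ) : GaussianInt) ∣ ((K.factorial : ℕ) : GaussianInt) :=
        Nat.cast_dvd_cast hd1
      have h6 : ((v.norm.natAbs : ℕ) : GaussianInt) = ((v.norm : ℤ) : GaussianInt) := by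
        calc ((v.norm.natAbs : ℕ) : GaussianInt) = (((v.norm.natAbs : ℕ) : ℤ) : GaussianInt) :=
              (Int.cast_natCast _).symm
          _ = ((v.norm : ℤ) : GaussianInt) := by rw [GaussianInt.abs_natCast_norm]
      rwa [h6] at h5
    exact ha.trans hb
  have hd3 : v ∣ z := by
    have : z = c + v := by rw [hv]; ring
    rw [this]
    exact dvd_add (hd2.trans (Dvd.intro _ rfl)) dvd_rfl
  obtain ⟨t, ht⟩ := hd3
  have hvu : ¬ IsUnit v := by
    intro hu
    have := Zsqrtd.norm_eq_one_iff.mpr hu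
    omega
  have htu : IsUnit t := (hz.irreducible.isUnit_or_isUnit ht).resolve_left hvu
  have htn : t.norm = 1 := by
    have h7 := Zsqrtd.norm_eq_one_iff.mpr htu
    have h8 := GaussianInt.norm_nonneg t
    omega
  have hzn : z.norm = v.norm := by rw [ht, Zsqrtd.norm_mul, htn, mul_one]
  have hzv : ‖(z : ℂ)‖ = ‖(v : ℂ)‖ := by
    have h9 : ‖(z : ℂ)‖ ^ 2 = ‖(v : ℂ)‖ ^ 2 := by rw [norm_sq_eq, norm_sq_eq, hzn]
    exact (pow_left_inj₀ (_root_.norm_nonneg _) (_root_.norm_nonneg _) two_ne_zero).mp h9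
  have hcn : (K.factorial : ℝ) ≤ ‖(c : ℂ)‖ := by
    rw [hc, GaussianInt.toComplex_mul, norm_mul]
    have h10 : ‖((K.factorial : GaussianInt) : ℂ)‖ = (K.factorial : ℝ) := by
      have : ((K.factorial : GaussianInt) : ℂ) = ((K.factorial : ℕ) : ℂ) := by
        exact map_natCast GaussianInt.toComplex _
      rw [this, Complex.norm_natCast]
    rw [h10]
    have := one_le_norm_of_ne_zero w hw
    nlinarith [Nat.cast_nonneg (α := ℝ) K.factorial]
  have hcle : ‖(c : ℂ)‖ ≤ ‖(z : ℂ)‖ + ‖(v : ℂ)‖ := by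
    have : (c : ℂ) = (z : ℂ) - (v : ℂ) := by rw [hvc]; ring
    rw [this]; exact norm_sub_le _ _
  linarith

/-- Two complex numbers on the same side of the imaginary axis and close to the real axis
are as close as their moduli, up to twice their imaginary parts. -/
theorem geo (a b : ℂ) (h : 0 ≤ a.re * b.re) :
    ‖a - b‖ ≤ |‖a‖ - ‖b‖| + 2 * |a.im| + 2 * |b.im| := by
  have h1 := Complex.norm_le_abs_re_add_abs_im (a - b)
  have h2 := Complex.norm_le_abs_re_add_abs_im a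
  have h3 := Complex.norm_le_abs_re_add_abs_im b
  have h4 := Complex.abs_re_le_norm a
  have h5 := Complex.abs_re_le_norm b
  have h6 : |(a - b).im| ≤ |a.im| + |b.im| := by
    rw [Complex.sub_im]; exact abs_sub _ _
  have h7 : |(a - b).re| = |(|a.re| - |b.re|)| := by
    rw [Complex.sub_re]
    rcases le_total 0 a.re with ha | ha <;> rcases le_total 0 b.re with hb | hb
    · rw [abs_of_nonneg ha, abs_of_nonneg hb]
    · have : a.re * b.re = 0 := le_antisymm (mul_nonpos_of_nonneg_of_nonpos ha hb) h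
      rcases mul_eq_zero.mp this with h0 | h0
      · rw [h0]; simp
      · rw [h0]; simp
    · have : a.re * b.re = 0 := le_antisymm (mul_nonpos_of_nonpos_of_nonneg ha hb) h
      rcases mul_eq_zero.mp this with h0 | h0
      · rw [h0]; simp
      · rw [h0]; simp
    · rw [abs_of_nonpos ha, abs_of_nonpos hb]
      rw [← abs_neg]; congr 1; ring
  have h8 : |(|a.re| - |b.re|)| ≤ |‖a‖ - ‖b‖| + |a.im| + |b.im| := by
    have ha0 := abs_nonneg a.im
    have hb0 := abs_nonneg b.im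
    rw [abs_le]
    constructor
    · have := neg_abs_le (‖a‖ - ‖b‖); linarith
    · have := le_abs_self (‖a‖ - ‖b‖); linarith
  linarith

/-- Dirichlet approximation: a line through the origin passes very close to a nonzero
Gaussian integer of controlled size. -/
theorem dirichlet (u : ℂ) (hu : ‖u‖ = 1) (Q : ℕ) (hQ : 0 < Q) :
    ∃ w : GaussianInt, w ≠ 0 ∧ |((starRingEnd ℂ) u * (w : ℂ)).im| ≤ 1 / ((Q : ℝ) + 1) ∧
      ‖(w : ℂ)‖ ≤ 2 * (Q : ℝ) + 1 := by
  have hsq : u.re ^ 2 + u.im ^ 2 = 1 := by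
    have := Complex.sq_norm u
    rw [hu, Complex.normSq_apply] at this
    nlinarith
  have hre1 : |u.re| ≤ 1 := by rw [← hu]; exact Complex.abs_re_le_norm u
  have him1 : |u.im| ≤ 1 := by rw [← hu]; exact Complex.abs_im_le_norm u
  have hQ0 : (0 : ℝ) < (Q : ℝ) + 1 := by positivity
  have hQ1 : 1 / ((Q : ℝ) + 1) ≤ 1 := by
    rw [div_le_one hQ0]; linarith [Nat.cast_nonneg (α := ℝ) Q]
  rcases le_total |u.im| |u.re| with hcase | hcase
  · -- slope b/a
    have ha : u.re ≠ 0 := by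
      intro h0
      rw [h0, abs_zero] at hcase
      have : u.im = 0 := abs_eq_zero.mp (le_antisymm hcase (abs_nonneg _))
      rw [h0, this] at hsq; norm_num at hsq
    obtain ⟨j, k, hk0, hkQ, hjk⟩ := Real.exists_int_int_abs_mul_sub_le (u.im / u.re) hQ
    have hxi : |u.im / u.re| ≤ 1 := by
      rw [abs_div, div_le_one (abs_pos.mpr ha)]; exact hcase
    have hkR : (k : ℝ) ≤ Q := by exact_mod_cast hkQ
    have hk0R : (0 : ℝ) < k := by exact_mod_cast hk0
    refine ⟨⟨k, j⟩, ?_, ?_, ?_⟩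
    · intro h0
      have : k = 0 := congrArg Zsqrtd.re h0
      omega
    · have hform : ((starRingEnd ℂ) u * ((⟨k, j⟩ : GaussianInt) : ℂ)).im
          = - (u.re * ((k : ℝ) * (u.im / u.re) - j)) := by
        simp only [Complex.mul_im, Complex.conj_re, Complex.conj_im, GaussianInt.re_toComplex,
          GaussianInt.im_toComplex]
        field_simp
        ring
      rw [hform, abs_neg, abs_mul]
      calc |u.re| * |(k : ℝ) * (u.im / u.re) - j| ≤ 1 * (1 / ((Q : ℝ) + 1)) :=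
            mul_le_mul hre1 hjk (abs_nonneg _) zero_le_one
        _ = 1 / ((Q : ℝ) + 1) := one_mul _
    · have hj : |(j : ℝ)| ≤ (Q : ℝ) + 1 := by
        have h1 : |(j : ℝ)| ≤ |(k : ℝ) * (u.im / u.re)| + |(k : ℝ) * (u.im / u.re) - j| := by
          have : (j : ℝ) = (k : ℝ) * (u.im / u.re) - ((k : ℝ) * (u.im / u.re) - j) := by ring
          calc |(j : ℝ)| = |(k : ℝ) * (u.im / u.re) - ((k : ℝ) * (u.im / u.re) - j)| := by
                rw [← this]
            _ ≤ _ := abs_sub _ _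
        have h2 : |(k : ℝ) * (u.im / u.re)| ≤ Q := by
          rw [abs_mul, abs_of_pos hk0R]
          calc (k : ℝ) * |u.im / u.re| ≤ (k : ℝ) * 1 := by gcongr
            _ ≤ Q := by linarith
        linarith
      have h3 := Complex.norm_le_abs_re_add_abs_im ((⟨k, j⟩ : GaussianInt) : ℂ)
      rw [GaussianInt.re_toComplex, GaussianInt.im_toComplex, abs_of_pos hk0R] at h3
      linarith
  · have hb : u.im ≠ 0 := by
      intro h0
      rw [h0, abs_zero] at hcase
      have : u.re = 0 := abs_eq_zero.mp (le_antisymm hcase (abs_nonneg _))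
      rw [h0, this] at hsq; norm_num at hsq
    obtain ⟨j, k, hk0, hkQ, hjk⟩ := Real.exists_int_int_abs_mul_sub_le (u.re / u.im) hQ
    have hxi : |u.re / u.im| ≤ 1 := by
      rw [abs_div, div_le_one (abs_pos.mpr hb)]; exact hcase
    have hkR : (k : ℝ) ≤ Q := by exact_mod_cast hkQ
    have hk0R : (0 : ℝ) < k := by exact_mod_cast hk0
    refine ⟨⟨j, k⟩, ?_, ?_, ?_⟩
    · intro h0
      have : k = 0 := congrArg Zsqrtd.im h0
      omega
    · have hform : ((starRingEnd ℂ) u * ((⟨j, k⟩ : GaussianInt) : ℂ)).im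
          = (u.im * ((k : ℝ) * (u.re / u.im) - j)) := by
        simp only [Complex.mul_im, Complex.conj_re, Complex.conj_im, GaussianInt.re_toComplex,
          GaussianInt.im_toComplex]
        field_simp
        ring
      rw [hform, abs_mul]
      calc |u.im| * |(k : ℝ) * (u.re / u.im) - j| ≤ 1 * (1 / ((Q : ℝ) + 1)) :=
            mul_le_mul him1 hjk (abs_nonneg _) zero_le_one
        _ = 1 / ((Q : ℝ) + 1) := one_mul _
    · have hj : |(j : ℝ)| ≤ (Q : ℝ) + 1 := by
        have h1 : |(j : ℝ)| ≤ |(k : ℝ) * (u.re / u.im)| + |(k : ℝ) * (u.re / u.im) - j| := by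
          have : (j : ℝ) = (k : ℝ) * (u.re / u.im) - ((k : ℝ) * (u.re / u.im) - j) := by ring
          calc |(j : ℝ)| = |(k : ℝ) * (u.re / u.im) - ((k : ℝ) * (u.re / u.im) - j)| := by
                rw [← this]
            _ ≤ _ := abs_sub _ _
        have h2 : |(k : ℝ) * (u.re / u.im)| ≤ Q := by
          rw [abs_mul, abs_of_pos hk0R]
          calc (k : ℝ) * |u.re / u.im| ≤ (k : ℝ) * 1 := by gcongr
            _ ≤ Q := by linarith
        linarith
      have h3 := Complex.norm_le_abs_re_add_abs_im ((⟨j, k⟩ : GaussianInt) : ℂ)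
      rw [GaussianInt.re_toComplex, GaussianInt.im_toComplex, abs_of_pos hk0R] at h3
      linarith

/-- The distance to the line `c + ℝ u` controls the cross product with the unit direction. -/
theorem cross_le_infDist (c u u0 : ℂ) (hu0 : ‖u0‖ = 1)
    (hpar : ((starRingEnd ℂ) u0 * u).im = 0) (x : ℂ) :
    |((starRingEnd ℂ) u0 * x).im| ≤
      Metric.infDist x {w : ℂ | ∃ t : ℝ, w = c + (t : ℂ) * u} + ‖c‖ := by
  have hne : {w : ℂ | ∃ t : ℝ, w = c + (t : ℂ) * u}.Nonempty := ⟨c, 0, by simp⟩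
  have hrot : ∀ y : ℂ, |((starRingEnd ℂ) u0 * y).im| ≤ ‖y‖ := by
    intro y
    calc |((starRingEnd ℂ) u0 * y).im| ≤ ‖(starRingEnd ℂ) u0 * y‖ := Complex.abs_im_le_norm _
      _ = ‖y‖ := by rw [norm_mul, Complex.norm_conj, hu0, one_mul]
  have h1 : |((starRingEnd ℂ) u0 * (x - c)).im| ≤
      Metric.infDist x {w : ℂ | ∃ t : ℝ, w = c + (t : ℂ) * u} := by
    rw [Metric.le_infDist hne]
    rintro y ⟨t, rfl⟩
    have e : (starRingEnd ℂ) u0 * (x - c)
        = (starRingEnd ℂ) u0 * (x - (c + (t : ℂ) * u)) + (t : ℂ) * ((starRingEnd ℂ) u0 * u) := by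
      ring
    have e2 : ((t : ℂ) * ((starRingEnd ℂ) u0 * u)).im = 0 := by
      rw [Complex.im_ofReal_mul, hpar, mul_zero]
    rw [e, Complex.add_im, e2, add_zero, dist_eq_norm]
    exact hrot _
  have h3 : ((starRingEnd ℂ) u0 * x).im
      = ((starRingEnd ℂ) u0 * (x - c)).im + ((starRingEnd ℂ) u0 * c).im := by
    rw [← Complex.add_im]; congr 1; ring
  rw [h3]
  calc |((starRingEnd ℂ) u0 * (x - c)).im + ((starRingEnd ℂ) u0 * c).im|
      ≤ |((starRingEnd ℂ) u0 * (x - c)).im| + |((starRingEnd ℂ) u0 * c).im| := abs_add_le _ _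
    _ ≤ _ := add_le_add h1 (hrot c)

theorem core (D A : ℝ) (c u : ℂ) (hu : u ≠ 0) (z : ℕ → GaussianInt)
    (hp : ∀ k, Prime (z k)) (hinj : Function.Injective z)
    (hstep : ∀ k, ‖((z (k + 1) : GaussianInt) : ℂ) - ((z k : GaussianInt) : ℂ)‖ ≤ D) :
    ∃ k, A * Real.log ‖((z k : GaussianInt) : ℂ)‖ <
      (Metric.infDist ((z k : GaussianInt) : ℂ) {w : ℂ | ∃ t : ℝ, w = c + (t : ℂ) * u}) ^ 3 := by
  classical
  by_contra hcon
  push Not at hcon
  -- unit direction
  have hun : (0 : ℝ) < ‖u‖ := norm_pos_iff.mpr hu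
  set u0 : ℂ := ((‖u‖⁻¹ : ℝ) : ℂ) * u with hu0def
  have hu0 : ‖u0‖ = 1 := by
    rw [hu0def, norm_mul, Complex.norm_real, norm_inv, norm_norm]
    exact inv_mul_cancel₀ hun.ne'
  have hpar : ((starRingEnd ℂ) u0 * u).im = 0 := by
    rw [hu0def]
    simp only [map_mul, Complex.conj_ofReal, Complex.mul_im, Complex.mul_re, Complex.ofReal_re,
      Complex.ofReal_im, Complex.conj_re, Complex.conj_im]
    ring
  -- the size parameter
  obtain ⟨m, hm⟩ := exists_nat_ge (5120 * |A| + 16 * ‖c‖ + 2 * D + ‖((z 0 : GaussianInt) : ℂ)‖ + 16)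
  have hA0 := abs_nonneg A
  have hc0 := _root_.norm_nonneg c
  have hz0 := _root_.norm_nonneg ((z 0 : GaussianInt) : ℂ)
  have hD0 : 0 ≤ D := le_trans (_root_.norm_nonneg _) (hstep 0)
  have hm16 : (16 : ℝ) ≤ m := by linarith
  have hm1 : (1 : ℝ) ≤ m := by linarith
  have hmpos : (0 : ℝ) < m := by linarith
  set Mr : ℝ := (m : ℝ) ^ 2 with hMr
  have hMm : (m : ℝ) ≤ Mr := by rw [hMr]; nlinarith
  set K : ℕ := m ^ 4 with hK
  have hKr : (K : ℝ) = Mr ^ 2 := by rw [hK, hMr]; push_cast; ring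
  have hKfac : (K : ℝ) ≤ (K.factorial : ℝ) := by exact_mod_cast Nat.self_le_factorial K
  have hfpos : (0 : ℝ) < (K.factorial : ℝ) := by exact_mod_cast Nat.factorial_pos K
  obtain ⟨w, hw0, hwim, hwn⟩ := dirichlet u0 hu0 K.factorial (Nat.factorial_pos K)
  have hcast : ((K.factorial : GaussianInt) : ℂ) = ((K.factorial : ℝ) : ℂ) := by
    have : ((K.factorial : GaussianInt) : ℂ) = ((K.factorial : ℕ) : ℂ) :=
      map_natCast GaussianInt.toComplex _
    rw [this]; simp
  -- properties of centres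
  have hcen : ∀ w' : GaussianInt, ‖(w' : ℂ)‖ = ‖(w : ℂ)‖ →
      |((starRingEnd ℂ) u0 * (w' : ℂ)).im| = |((starRingEnd ℂ) u0 * (w : ℂ)).im| →
      ‖(((K.factorial : GaussianInt) * w' : GaussianInt) : ℂ)‖ = (K.factorial : ℝ) * ‖(w : ℂ)‖ ∧
      |((starRingEnd ℂ) u0 * (((K.factorial : GaussianInt) * w' : GaussianInt) : ℂ)).im| ≤ 1 := by
    intro w' h1 h2
    constructor
    · rw [GaussianInt.toComplex_mul, norm_mul, hcast, Complex.norm_real, h1,
        Real.norm_of_nonneg hfpos.le]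
    · rw [GaussianInt.toComplex_mul, hcast]
      have e : (starRingEnd ℂ) u0 * (((K.factorial : ℝ) : ℂ) * (w' : ℂ))
          = ((K.factorial : ℝ) : ℂ) * ((starRingEnd ℂ) u0 * (w' : ℂ)) := by ring
      rw [e, Complex.im_ofReal_mul, abs_mul, abs_of_pos hfpos, h2]
      calc (K.factorial : ℝ) * |((starRingEnd ℂ) u0 * (w : ℂ)).im|
          ≤ (K.factorial : ℝ) * (1 / ((K.factorial : ℝ) + 1)) := by gcongr
        _ ≤ 1 := by
          rw [mul_one_div, div_le_one (by linarith)]; linarith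
  set Cn : ℝ := (K.factorial : ℝ) * ‖(w : ℂ)‖ with hCn
  have hw1 := one_le_norm_of_ne_zero w hw0
  have hCn_lo : (K.factorial : ℝ) ≤ Cn := by rw [hCn]; nlinarith
  have hCn_hi : Cn ≤ 3 * (K.factorial : ℝ) ^ 2 := by
    have h1f : (1 : ℝ) ≤ (K.factorial : ℝ) := by exact_mod_cast Nat.factorial_pos K
    rw [hCn]
    calc (K.factorial : ℝ) * ‖(w : ℂ)‖ ≤ (K.factorial : ℝ) * (2 * (K.factorial : ℝ) + 1) := by gcongr
      _ ≤ 3 * (K.factorial : ℝ) ^ 2 := by nlinarith
  -- first passage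
  have hMr16 : (16 : ℝ) ≤ Mr := le_trans hm16 hMm
  have hex : ∃ k, Cn - Mr / 2 < ‖((z k : GaussianInt) : ℂ)‖ := by
    by_contra hc2
    push Not at hc2
    have : (Set.range z).Finite :=
      (finite_disk (Cn - Mr / 2)).subset (by rintro _ ⟨k, rfl⟩; exact hc2 k)
    exact (Set.infinite_range_of_injective hinj) this
  have hk : Cn - Mr / 2 < ‖((z (Nat.find hex) : GaussianInt) : ℂ)‖ := Nat.find_spec hex
  have hstart : ‖((z 0 : GaussianInt) : ℂ)‖ ≤ Cn - Mr / 2 := by
    have h1 : Mr ^ 2 ≤ Cn := by rw [← hKr]; linarith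
    nlinarith
  have hk0 : Nat.find hex ≠ 0 := by
    intro h0
    rw [h0] at hk
    exact absurd hstart (not_le.mpr hk)
  obtain ⟨j, hj⟩ := Nat.exists_eq_succ_of_ne_zero hk0
  have hjle : ‖((z j : GaussianInt) : ℂ)‖ ≤ Cn - Mr / 2 := by
    have : j < Nat.find hex := by omega
    exact not_lt.mp (Nat.find_min hex this)
  set zs : GaussianInt := z (Nat.find hex) with hzs
  have hkle : ‖(zs : ℂ)‖ ≤ Cn - Mr / 2 + D := by
    have h1 := hstep j
    rw [hzs, hj]
    calc ‖((z (j + 1) : GaussianInt) : ℂ)‖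
        = ‖((z j : GaussianInt) : ℂ) + (((z (j + 1) : GaussianInt) : ℂ) - ((z j : GaussianInt) : ℂ))‖ := by
          congr 1; ring
      _ ≤ ‖((z j : GaussianInt) : ℂ)‖ + ‖((z (j + 1) : GaussianInt) : ℂ) - ((z j : GaussianInt) : ℂ)‖ :=
          norm_add_le _ _
      _ ≤ Cn - Mr / 2 + D := add_le_add hjle h1
  have hD2 : D + 2 ≤ Mr / 2 := by linarith
  have hzsC : ‖(zs : ℂ)‖ ≤ Cn := by linarith
  have hzs1 : 1 ≤ ‖(zs : ℂ)‖ := one_le_norm_of_ne_zero zs (hp _).ne_zero
  -- logarithm bound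
  have hlog : Real.log ‖(zs : ℂ)‖ ≤ 10 * (m : ℝ) ^ 5 := by
    have hKpos : (0 : ℝ) < (K : ℝ) := by rw [hKr]; positivity
    have hfac : (K.factorial : ℝ) ≤ (K : ℝ) ^ K := by exact_mod_cast Nat.factorial_le_pow K
    have hlogfac : Real.log (K.factorial : ℝ) ≤ K * Real.log K := by
      calc Real.log (K.factorial : ℝ) ≤ Real.log ((K : ℝ) ^ K) := Real.log_le_log hfpos hfac
        _ = K * Real.log K := Real.log_pow _ _
    have hlogK : Real.log (K : ℝ) ≤ 4 * m := by
      have e : (K : ℝ) = (m : ℝ) ^ 4 := by rw [hK]; push_cast; ring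
      rw [e, Real.log_pow]
      have := Real.log_le_sub_one_of_pos hmpos
      push_cast
      linarith
    have hK4 : (K : ℝ) = (m : ℝ) ^ 4 := by rw [hK]; push_cast; ring
    have h3 : Real.log 3 ≤ 2 := by
      have := Real.log_le_sub_one_of_pos (show (0 : ℝ) < 3 by norm_num)
      linarith
    calc Real.log ‖(zs : ℂ)‖ ≤ Real.log (3 * (K.factorial : ℝ) ^ 2) :=
          Real.log_le_log (by linarith) (le_trans hzsC hCn_hi)
      _ = Real.log 3 + 2 * Real.log (K.factorial : ℝ) := by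
          rw [Real.log_mul (by norm_num) (by positivity), Real.log_pow]; push_cast; ring
      _ ≤ 2 + 2 * ((K : ℝ) * (4 * m)) := by
          have : (K : ℝ) * Real.log K ≤ (K : ℝ) * (4 * m) := by gcongr
          linarith
      _ = 2 + 8 * (m : ℝ) ^ 5 := by rw [hK4]; ring
      _ ≤ 10 * (m : ℝ) ^ 5 := by
          have : (1 : ℝ) ≤ (m : ℝ) ^ 5 := one_le_pow₀ hm1
          linarith
  have hlog0 : 0 ≤ Real.log ‖(zs : ℂ)‖ := Real.log_nonneg hzs1
  have hdist : Metric.infDist (zs : ℂ) {w : ℂ | ∃ t : ℝ, w = c + (t : ℂ) * u} ≤ Mr / 8 := by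
    have h1 := hcon (Nat.find hex)
    rw [← hzs] at h1
    have h2 : A * Real.log ‖(zs : ℂ)‖ ≤ (Mr / 8) ^ 3 := by
      calc A * Real.log ‖(zs : ℂ)‖ ≤ |A| * Real.log ‖(zs : ℂ)‖ := by
            gcongr; exact le_abs_self A
        _ ≤ |A| * (10 * (m : ℝ) ^ 5) := by gcongr
        _ ≤ ((m : ℝ) / 5120) * (10 * (m : ℝ) ^ 5) := by
            have : |A| ≤ (m : ℝ) / 5120 := by rw [le_div_iff₀ (by norm_num)]; linarith
            gcongr
        _ = (Mr / 8) ^ 3 := by rw [hMr]; ring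
    exact (pow_le_pow_iff_left₀ Metric.infDist_nonneg (by positivity) (by norm_num)).mp
      (le_trans h1 h2)
  have hcross : |((starRingEnd ℂ) u0 * (zs : ℂ)).im| ≤ Mr / 8 + Mr / 16 := by
    have h1 := cross_le_infDist c u u0 hu0 hpar (zs : ℂ)
    have h2 : ‖c‖ ≤ Mr / 16 := by linarith
    linarith
  -- choose the sign of the centre
  have hsign : ∃ w' : GaussianInt, w' ≠ 0 ∧ ‖(w' : ℂ)‖ = ‖(w : ℂ)‖ ∧
      |((starRingEnd ℂ) u0 * (w' : ℂ)).im| = |((starRingEnd ℂ) u0 * (w : ℂ)).im| ∧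
      0 ≤ ((starRingEnd ℂ) u0 * (zs : ℂ)).re *
        ((starRingEnd ℂ) u0 * (((K.factorial : GaussianInt) * w' : GaussianInt) : ℂ)).re := by
    rcases le_total 0 (((starRingEnd ℂ) u0 * (zs : ℂ)).re *
        ((starRingEnd ℂ) u0 * (((K.factorial : GaussianInt) * w : GaussianInt) : ℂ)).re) with h | h
    · exact ⟨w, hw0, rfl, rfl, h⟩
    · refine ⟨-w, neg_ne_zero.mpr hw0, ?_, ?_, ?_⟩
      · rw [GaussianInt.toComplex_neg, norm_neg]
      · rw [GaussianInt.toComplex_neg, mul_neg, Complex.neg_im, abs_neg]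
      · have e : (((K.factorial : GaussianInt) * (-w) : GaussianInt) : ℂ)
            = - (((K.factorial : GaussianInt) * w : GaussianInt) : ℂ) := by
          rw [mul_neg, GaussianInt.toComplex_neg]
        rw [e, mul_neg, Complex.neg_re]
        linarith
  obtain ⟨w', hw'0, hw'n, hw'im, hw's⟩ := hsign
  obtain ⟨hcn, hcim⟩ := hcen w' hw'n hw'im
  set c' : GaussianInt := (K.factorial : GaussianInt) * w' with hc'
  have hrotn : ∀ y : ℂ, ‖(starRingEnd ℂ) u0 * y‖ = ‖y‖ := by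
    intro y; rw [norm_mul, Complex.norm_conj, hu0, one_mul]
  have hgeo := geo ((starRingEnd ℂ) u0 * (zs : ℂ)) ((starRingEnd ℂ) u0 * (c' : ℂ)) hw's
  rw [← mul_sub, hrotn, hrotn, hrotn, hcn] at hgeo
  have habs : |‖(zs : ℂ)‖ - Cn| ≤ Mr / 2 := by
    rw [abs_le]; constructor <;> linarith
  have hupper : ‖(zs : ℂ) - (c' : ℂ)‖ ≤ Mr := by linarith
  have hlower : 2 ≤ ‖(zs : ℂ) - (c' : ℂ)‖ := by
    have h1 : ‖(c' : ℂ)‖ - ‖(zs : ℂ)‖ ≤ ‖(c' : ℂ) - (zs : ℂ)‖ := norm_sub_norm_le _ _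
    rw [norm_sub_rev, hcn] at h1
    linarith
  refine barrier K w' zs hw'0 (hp _) ?_ ?_ ?_
  · rw [← hc']; linarith
  · rw [← hc', hKr]
    exact pow_le_pow_left₀ (_root_.norm_nonneg _) hupper 2
  · rw [← hc']
    have : 2 * Mr < Mr ^ 2 := by nlinarith
    rw [← hKr] at this
    linarith

/-- No bounded-step walk on distinct Gaussian primes stays in a logarithmically widening
neighbourhood of a straight line. -/
theorem result (D A : ℝ) (c u : ℂ) (hu : u ≠ 0) (z : ℕ → GaussianInt)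
    (hp : ∀ k, Prime (z k)) (hinj : Function.Injective z)
    (hstep : ∀ k, ‖((z (k + 1) : GaussianInt) : ℂ) - ((z k : GaussianInt) : ℂ)‖ ≤ D) :
    ∀ n : ℕ, ∃ k, n ≤ k ∧ A * Real.log ‖((z k : GaussianInt) : ℂ)‖ <
      (Metric.infDist ((z k : GaussianInt) : ℂ) {w : ℂ | ∃ t : ℝ, w = c + (t : ℂ) * u}) ^ 3 := by
  intro n
  obtain ⟨k, hk⟩ := core D A c u hu (fun i => z (i + n)) (fun i => hp _)
    (fun a b hab => by have := hinj hab; omega)
    (fun i => by have := hstep (i + n); rwa [show i + n + 1 = i + 1 + n by ring] at this)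
  exact ⟨k + n, by omega, hk⟩

end Vale.Agent.Results.P015.LogStrip
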