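import Mathlib
import Vale.Agent.Results.P015.LogStrip

namespace Vale.Agent.Results.P015.DisksOnEveryLine

open GaussianInt Vale.Agent.Results.P015.LogStrip

/-- On every straight line of the complex plane (no rationality assumption) there are centres,
arbitrarily far from the origin, of disks of arbitrarily large radius that contain no
Gaussian prime. -/
theorem result (c u : ℂ) (hu : u ≠ 0) (R T : ℝ) :
    ∃ t : ℝ, T ≤ ‖c + (t : ℂ) * u‖ ∧
      ∀ z : GaussianInt, ‖((z : GaussianInt) : ℂ) - (c + (t : ℂ) * u)‖ ≤ R → ¬ Prime z := by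
  have hun : (0 : ℝ) < ‖u‖ := norm_pos_iff.mpr hu
  set u0 : ℂ := ((‖u‖⁻¹ : ℝ) : ℂ) * u with hu0def
  have hu0 : ‖u0‖ = 1 := by
    rw [hu0def, norm_mul, Complex.norm_real, norm_inv, norm_norm]
    exact inv_mul_cancel₀ hun.ne'
  obtain ⟨M, hM⟩ := exists_nat_ge (2 * |R| + 2 * ‖c‖ + |T| + 8)
  have hR0 := abs_nonneg R
  have hT0 := abs_nonneg T
  have hc0 := _root_.norm_nonneg c
  have hM8 : (8 : ℝ) ≤ M := by linarith
  set K : ℕ := M ^ 2 with hK
  have hKr : (K : ℝ) = (M : ℝ) ^ 2 := by rw [hK]; push_cast; ring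
  have hKfac : (K : ℝ) ≤ (K.factorial : ℝ) := by exact_mod_cast Nat.self_le_factorial K
  have hfpos : (0 : ℝ) < (K.factorial : ℝ) := by exact_mod_cast Nat.factorial_pos K
  obtain ⟨w, hw0, hwim, _⟩ := dirichlet u0 hu0 K.factorial (Nat.factorial_pos K)
  have hcast : ((K.factorial : GaussianInt) : ℂ) = ((K.factorial : ℝ) : ℂ) := by
    have : ((K.factorial : GaussianInt) : ℂ) = ((K.factorial : ℕ) : ℂ) :=
      map_natCast GaussianInt.toComplex _
    rw [this]; simp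
  set c' : GaussianInt := (K.factorial : GaussianInt) * w with hc'
  have hc'im : |((starRingEnd ℂ) u0 * (c' : ℂ)).im| ≤ 1 := by
    rw [hc', GaussianInt.toComplex_mul, hcast]
    have e : (starRingEnd ℂ) u0 * (((K.factorial : ℝ) : ℂ) * (w : ℂ))
        = ((K.factorial : ℝ) : ℂ) * ((starRingEnd ℂ) u0 * (w : ℂ)) := by ring
    rw [e, Complex.im_ofReal_mul, abs_mul, abs_of_pos hfpos]
    calc (K.factorial : ℝ) * |((starRingEnd ℂ) u0 * (w : ℂ)).im|
        ≤ (K.factorial : ℝ) * (1 / ((K.factorial : ℝ) + 1)) := by gcongr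
      _ ≤ 1 := by
        rw [mul_one_div, div_le_one (by linarith)]; linarith
  have hc'n : (K.factorial : ℝ) ≤ ‖(c' : ℂ)‖ := by
    rw [hc', GaussianInt.toComplex_mul, norm_mul, hcast, Complex.norm_real,
      Real.norm_of_nonneg hfpos.le]
    have := one_le_norm_of_ne_zero w hw0
    nlinarith
  have hrotn : ∀ y : ℂ, ‖(starRingEnd ℂ) u0 * y‖ = ‖y‖ := by
    intro y; rw [norm_mul, Complex.norm_conj, hu0, one_mul]
  -- the parameter of the centre, in the unit-speed parametrisation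
  set τ : ℝ := ((starRingEnd ℂ) u0 * (c' : ℂ)).re - ((starRingEnd ℂ) u0 * c).re + (|R| + 2) with hτ
  set p : ℂ := c + ((τ * ‖u‖⁻¹ : ℝ) : ℂ) * u with hp
  have hp' : p = c + (τ : ℂ) * u0 := by
    rw [hp, hu0def]; push_cast; ring
  have huu : (starRingEnd ℂ) u0 * u0 = 1 := by
    rw [mul_comm, Complex.mul_conj, Complex.normSq_eq_norm_sq, hu0]; simp
  have hrot : (starRingEnd ℂ) u0 * (p - (c' : ℂ))
      = (starRingEnd ℂ) u0 * c + (τ : ℂ) - (starRingEnd ℂ) u0 * (c' : ℂ) := by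
    rw [hp']
    calc (starRingEnd ℂ) u0 * (c + (τ : ℂ) * u0 - (c' : ℂ))
        = (starRingEnd ℂ) u0 * c + (τ : ℂ) * ((starRingEnd ℂ) u0 * u0)
          - (starRingEnd ℂ) u0 * (c' : ℂ) := by ring
      _ = _ := by rw [huu, mul_one]
  have hre : ((starRingEnd ℂ) u0 * (p - (c' : ℂ))).re = |R| + 2 := by
    rw [hrot]; simp only [Complex.sub_re, Complex.add_re, Complex.ofReal_re]; rw [hτ]; ring
  have him : |((starRingEnd ℂ) u0 * (p - (c' : ℂ))).im| ≤ ‖c‖ + 1 := by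
    rw [hrot]; simp only [Complex.sub_im, Complex.add_im, Complex.ofReal_im, add_zero]
    have h1 : |((starRingEnd ℂ) u0 * c).im| ≤ ‖c‖ := by
      rw [← hrotn c]; exact Complex.abs_im_le_norm _
    calc |((starRingEnd ℂ) u0 * c).im - ((starRingEnd ℂ) u0 * (c' : ℂ)).im|
        ≤ |((starRingEnd ℂ) u0 * c).im| + |((starRingEnd ℂ) u0 * (c' : ℂ)).im| := abs_sub _ _
      _ ≤ ‖c‖ + 1 := add_le_add h1 hc'im
  have hlow : |R| + 2 ≤ ‖p - (c' : ℂ)‖ := by
    rw [← hrotn (p - (c' : ℂ)), ← hre]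
    exact le_trans (le_abs_self _) (Complex.abs_re_le_norm _)
  have hupp : ‖p - (c' : ℂ)‖ ≤ |R| + 2 + (‖c‖ + 1) := by
    rw [← hrotn (p - (c' : ℂ))]
    have h1 := Complex.norm_le_abs_re_add_abs_im ((starRingEnd ℂ) u0 * (p - (c' : ℂ)))
    rw [hre, abs_of_nonneg (by linarith)] at h1
    linarith
  have hMsq : (M : ℝ) * 8 ≤ (M : ℝ) ^ 2 := by nlinarith
  refine ⟨τ * ‖u‖⁻¹, ?_, ?_⟩
  · -- far from the origin
    have h1 : ‖(c' : ℂ)‖ - ‖p - (c' : ℂ)‖ ≤ ‖p‖ := by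
      have : (c' : ℂ) = p - (p - (c' : ℂ)) := by ring
      have h2 : ‖(c' : ℂ)‖ ≤ ‖p‖ + ‖p - (c' : ℂ)‖ := by
        calc ‖(c' : ℂ)‖ = ‖p - (p - (c' : ℂ))‖ := by rw [← this]
          _ ≤ _ := norm_sub_le _ _
      linarith
    have h3 : T ≤ |T| := le_abs_self T
    rw [← hp]
    nlinarith
  · intro z hz hprime
    rw [← hp] at hz
    have hR : R ≤ |R| := le_abs_self R
    have e : (z : ℂ) - (c' : ℂ) = ((z : ℂ) - p) + (p - (c' : ℂ)) := by ring
    have hzu : ‖(z : ℂ) - (c' : ℂ)‖ ≤ M := by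
      rw [e]
      calc ‖((z : ℂ) - p) + (p - (c' : ℂ))‖ ≤ ‖(z : ℂ) - p‖ + ‖p - (c' : ℂ)‖ := norm_add_le _ _
        _ ≤ M := by linarith
    have hzl : 2 ≤ ‖(z : ℂ) - (c' : ℂ)‖ := by
      have h1 : ‖p - (c' : ℂ)‖ ≤ ‖(z : ℂ) - (c' : ℂ)‖ + ‖(z : ℂ) - p‖ := by
        have : p - (c' : ℂ) = ((z : ℂ) - (c' : ℂ)) - ((z : ℂ) - p) := by ring
        rw [this]; exact norm_sub_le _ _
      linarith
    refine barrier K w z hw0 hprime ?_ ?_ ?_
    · rw [← hc']; linarith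
    · rw [← hc', hKr]
      exact pow_le_pow_left₀ (_root_.norm_nonneg _) hzu 2
    · rw [← hc']
      nlinarith

end Vale.Agent.Results.P015.DisksOnEveryLine
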