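import Mathlib

namespace Vale.Agent.Results.P015.ShortIntervalPrimes

open GaussianInt

/-- A Gaussian prime divides some rational prime. -/
theorem exists_nat_prime_dvd (π : GaussianInt) (hπ : Prime π) :
    ∀ n : ℕ, n ≠ 0 → π ∣ (n : GaussianInt) → ∃ p : ℕ, p.Prime ∧ π ∣ (p : GaussianInt) := by
  intro n
  induction n using Nat.recOnMul with
  | zero => intro h; exact absurd rfl h
  | one =>
    intro _ h
    exact absurd (isUnit_of_dvd_one (by simpa using h)) hπ.not_isUnit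
  | prime p hp => intro _ h; exact ⟨p, hp, h⟩
  | mul a b iha ihb =>
    intro hab h
    have ha : a ≠ 0 := fun h0 => hab (by simp [h0])
    have hb : b ≠ 0 := fun h0 => hab (by simp [h0])
    rw [Nat.cast_mul] at h
    rcases hπ.dvd_or_dvd h with h1 | h1
    · exact iha ha h1
    · exact ihb hb h1

/-- Classification of Gaussian primes by their norm. -/
theorem classify (π : GaussianInt) (hπ : Prime π) :
    ∃ p : ℕ, p.Prime ∧ ((π.norm = p ∧ p % 4 ≠ 3) ∨ (π.norm = (p : ℤ) ^ 2 ∧ p % 4 = 3)) := by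
  have hn0 : π.norm.natAbs ≠ 0 := by
    intro h
    have : π.norm = 0 := Int.natAbs_eq_zero.mp h
    exact hπ.ne_zero (GaussianInt.norm_eq_zero.mp this)
  have hdvd : π ∣ ((π.norm.natAbs : ℕ) : GaussianInt) := by
    have h1 : ((π.norm.natAbs : ℕ) : GaussianInt) = ((π.norm : ℤ) : GaussianInt) := by
      have := GaussianInt.abs_natCast_norm π
      calc ((π.norm.natAbs : ℕ) : GaussianInt) = (((π.norm.natAbs : ℕ) : ℤ) : GaussianInt) :=
            (Int.cast_natCast _).symm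
        _ = ((π.norm : ℤ) : GaussianInt) := by rw [this]
    rw [h1, Zsqrtd.norm_eq_mul_conj]
    exact Dvd.intro _ rfl
  obtain ⟨p, hp, t, ht⟩ := exists_nat_prime_dvd π hπ _ hn0 hdvd
  refine ⟨p, hp, ?_⟩
  have hnorm : (p : ℤ) ^ 2 = π.norm * t.norm := by
    have := congrArg Zsqrtd.norm ht
    rw [Zsqrtd.norm_mul, Zsqrtd.norm_natCast] at this
    rw [← this]; ring
  have hnn := GaussianInt.norm_nonneg π
  have hd : π.norm.natAbs ∣ p ^ 2 := by
    have : (π.norm.natAbs : ℤ) ∣ ((p ^ 2 : ℕ) : ℤ) := by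
      rw [GaussianInt.abs_natCast_norm]; push_cast; exact Dvd.intro _ hnorm.symm
    exact_mod_cast this
  obtain ⟨m, hm, hpm⟩ := (Nat.dvd_prime_pow hp).1 hd
  have hpm' : π.norm = (p : ℤ) ^ m := by
    rw [← GaussianInt.abs_natCast_norm, hpm]; push_cast; rfl
  interval_cases m
  · exfalso
    have : π.norm.natAbs = 1 := by simpa using hpm
    exact hπ.not_isUnit (Zsqrtd.norm_eq_one_iff.mp this)
  · left
    refine ⟨by simpa using hpm', ?_⟩
    intro h3
    have h4 : π.re * π.re + π.im * π.im = (p : ℤ) := by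
      have := hpm'
      rw [Zsqrtd.norm_def] at this
      simp at this
      linarith
    have h5 : ((p : ℤ)) % 4 = 3 := by exact_mod_cast h3
    have hre : π.re % 4 = 0 ∨ π.re % 4 = 1 ∨ π.re % 4 = 2 ∨ π.re % 4 = 3 := by omega
    have him : π.im % 4 = 0 ∨ π.im % 4 = 1 ∨ π.im % 4 = 2 ∨ π.im % 4 = 3 := by omega
    rw [← h4] at h5
    rcases hre with h | h | h | h <;> rcases him with h' | h' | h' | h' <;>
      simp [Int.add_emod, Int.mul_emod, h, h'] at h5
  · right
    refine ⟨hpm', ?_⟩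
    have hp0 : (p : ℤ) ^ 2 ≠ 0 := by
      have := hp.pos
      positivity
    have ht1 : t.norm = 1 := by
      rw [hpm'] at hnorm
      have : (p : ℤ) ^ 2 * 1 = (p : ℤ) ^ 2 * t.norm := by linarith
      exact (mul_left_cancel₀ hp0 this).symm
    have htu : IsUnit t := Zsqrtd.norm_eq_one_iff.mp (by rw [ht1]; rfl)
    have hpp : Prime (p : GaussianInt) := by
      rw [ht]
      obtain ⟨u, hu⟩ := htu
      rw [← hu]
      exact (Associated.prime_iff ⟨u, rfl⟩).mp hπ
    have : Fact p.Prime := ⟨hp⟩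
    exact GaussianInt.mod_four_eq_three_of_nat_prime_of_prime p hpp

/-- Only finitely many Gaussian integers lie in a disk. -/
theorem finite_disk (R : ℝ) : {w : GaussianInt | ‖(w : ℂ)‖ ≤ R}.Finite := by
  obtain ⟨N, hN⟩ := exists_nat_ge R
  have hsub : {w : GaussianInt | ‖(w : ℂ)‖ ≤ R} ⊆
      (fun q : ℤ × ℤ => (⟨q.1, q.2⟩ : GaussianInt)) ''
        (Set.Icc (-(N : ℤ)) N ×ˢ Set.Icc (-(N : ℤ)) N) := by
    intro w hw
    have hw' : ‖(w : ℂ)‖ ≤ N := le_trans hw hN
    have h1 : |(w : ℂ).re| ≤ N := le_trans (Complex.abs_re_le_norm _) hw'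
    have h2 : |(w : ℂ).im| ≤ N := le_trans (Complex.abs_im_le_norm _) hw'
    rw [← GaussianInt.intCast_re] at h1
    rw [← GaussianInt.intCast_im] at h2
    have h1' : |w.re| ≤ (N : ℤ) := by exact_mod_cast h1
    have h2' : |w.im| ≤ (N : ℤ) := by exact_mod_cast h2
    refine ⟨(w.re, w.im), ⟨⟨?_, ?_⟩, ⟨?_, ?_⟩⟩, rfl⟩
    · exact (abs_le.mp h1').1
    · exact (abs_le.mp h1').2
    · exact (abs_le.mp h2').1
    · exact (abs_le.mp h2').2
  exact ((Set.finite_Icc _ _).prod (Set.finite_Icc _ _)).image _ |>.subset hsub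

theorem norm_sq_eq (w : GaussianInt) : ‖(w : ℂ)‖ ^ 2 = (w.norm : ℝ) := by
  rw [GaussianInt.intCast_real_norm, Complex.normSq_eq_norm_sq]

/-- If an infinite sequence of distinct Gaussian primes has all successive distances at most `D`,
then for every `R` at least the modulus of the starting point there is a rational prime
`p = 1 mod 4` with `R^2 < p ≤ (R+D)^2`, or a rational prime `q = 3 mod 4` with `R < q ≤ R+D`. -/
theorem result (D : ℝ) (z : ℕ → GaussianInt) (hp : ∀ k, Prime (z k))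
    (hinj : Function.Injective z)
    (hstep : ∀ k, ‖((z (k + 1) : GaussianInt) : ℂ) - ((z k : GaussianInt) : ℂ)‖ ≤ D) :
    ∀ R : ℝ, ‖((z 0 : GaussianInt) : ℂ)‖ ≤ R →
      (∃ p : ℕ, p.Prime ∧ p % 4 = 1 ∧ R ^ 2 < (p : ℝ) ∧ (p : ℝ) ≤ (R + D) ^ 2) ∨
      (∃ q : ℕ, q.Prime ∧ q % 4 = 3 ∧ R < (q : ℝ) ∧ (q : ℝ) ≤ R + D) := by
  intro R hR
  classical
  -- the walk leaves the disk of radius R
  have hex : ∃ k, R < ‖((z k : GaussianInt) : ℂ)‖ := by
    by_contra hcon
    push Not at hcon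
    have : (Set.range z).Finite := (finite_disk R).subset (by rintro _ ⟨k, rfl⟩; exact hcon k)
    exact (Set.infinite_range_of_injective hinj) this
  let k := Nat.find hex
  have hk : R < ‖((z k : GaussianInt) : ℂ)‖ := Nat.find_spec hex
  have hk0 : k ≠ 0 := by
    intro h0
    rw [h0] at hk
    exact absurd hR (not_le.mpr hk)
  obtain ⟨j, hj⟩ := Nat.exists_eq_succ_of_ne_zero hk0
  have hjle : ‖((z j : GaussianInt) : ℂ)‖ ≤ R := by
    have : j < k := by omega
    exact not_lt.mp (Nat.find_min hex this)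
  have hkle : ‖((z k : GaussianInt) : ℂ)‖ ≤ R + D := by
    have h1 := hstep j
    rw [hj]
    calc ‖((z (j + 1) : GaussianInt) : ℂ)‖
        = ‖((z j : GaussianInt) : ℂ) + (((z (j + 1) : GaussianInt) : ℂ) - ((z j : GaussianInt) : ℂ))‖ := by
          congr 1; ring
      _ ≤ ‖((z j : GaussianInt) : ℂ)‖ + ‖((z (j + 1) : GaussianInt) : ℂ) - ((z j : GaussianInt) : ℂ)‖ :=
          norm_add_le _ _
      _ ≤ R + D := add_le_add hjle h1
  have hR0 : 0 ≤ R := le_trans (norm_nonneg _) hR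
  -- the start has norm at least 2
  have h2 : (2 : ℝ) ≤ R ^ 2 := by
    obtain ⟨p, hpp, h⟩ := classify (z 0) (hp 0)
    have hp2 : (2 : ℝ) ≤ p := by exact_mod_cast hpp.two_le
    have : (2 : ℝ) ≤ ((z 0).norm : ℝ) := by
      rcases h with ⟨h, _⟩ | ⟨h, _⟩
      · rw [h]; exact_mod_cast hpp.two_le
      · rw [h]; push_cast; nlinarith
    rw [← norm_sq_eq] at this
    calc (2 : ℝ) ≤ ‖((z 0 : GaussianInt) : ℂ)‖ ^ 2 := this
      _ ≤ R ^ 2 := by gcongr
  obtain ⟨p, hpp, h⟩ := classify (z k) (hp k)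
  have hsq := norm_sq_eq (z k)
  rcases h with ⟨h, h3⟩ | ⟨h, h3⟩
  · left
    have hpe : (p : ℝ) = ‖((z k : GaussianInt) : ℂ)‖ ^ 2 := by rw [hsq, h]; simp
    have hlt : R ^ 2 < (p : ℝ) := by rw [hpe]; gcongr
    refine ⟨p, hpp, ?_, hlt, ?_⟩
    · have hp2 : 2 < p := by
        have : (2 : ℝ) < p := lt_of_le_of_lt h2 hlt
        exact_mod_cast this
      have hodd := hpp.eq_two_or_odd
      omega
    · rw [hpe]; gcongr
  · right
    have hpe : (p : ℝ) = ‖((z k : GaussianInt) : ℂ)‖ := by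
      have h5 : ‖((z k : GaussianInt) : ℂ)‖ ^ 2 = (p : ℝ) ^ 2 := by rw [hsq, h]; simp
      have h6 : (0 : ℝ) ≤ p := Nat.cast_nonneg p
      exact ((pow_left_inj₀ (_root_.norm_nonneg _) h6 (two_ne_zero)).mp h5).symm
    exact ⟨p, hpp, h3, by rw [hpe]; exact hk, by rw [hpe]; exact hkle⟩

end Vale.Agent.Results.P015.ShortIntervalPrimes
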